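import Crest.Agent.R241.Meas.Lin
import Crest.Agent.R241.Sum

/-!
# Block J: the fundamental chain of the ball.  Helper prefix `mch_`.
-/

open MeasureTheory Set Filter Topology Metric
open Crest.GeometryTopology.MetricCurrent
open Crest.GeometryTopology.Submanifold (Euc metricMat relBoundary)
open scoped ENNReal NNReal InnerProductSpace

noncomputable section

namespace Crest.Agent.R241

variable {d n N : ℕ} {Y : Type} [MetricSpace Y] {R : ℝ}

/-- near `z` the function `π a ∘ p` agrees with `g a` -/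
theorem BC.jacOn_eq {A : Euc d → Euc d →L[ℝ] Euc N} {p : Euc d → Y} {q : Y → Euc d}
    (h : BC A R p q) {π : Fin d → Y → ℝ} {g : Fin d → Euc d → ℝ} (hπ : ∀ a y, π a y = g a (q y))
    {z : Euc d} (hz : z ∈ ball (0 : Euc d) R) : jacOn univ p π z = jacE univ g z := by
  have key : ∀ a, (fun w => π a (p w)) =ᶠ[𝓝 z] g a := fun a => by
    filter_upwards [isOpen_ball.mem_nhds hz] with w hw
    rw [hπ, h.qp w (ball_subset_closedBall hw)]
  simp only [jacOn, jacE, fderivWithin_univ, (key _).fderiv_eq]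

/-- `integral_det_eq_zero`; outside the ball the first row vanishes -/
theorem BC.integral_jacOn_eq_zero {A : Euc (n + 1) → Euc (n + 1) →L[ℝ] Euc N}
    {p : Euc (n + 1) → Y} {q : Y → Euc (n + 1)} (h : BC A R p q) {π : Fin (n + 1) → Y → ℝ}
    (hπ : ∀ a, Lip (π a)) {R' : ℝ} (hR : R' < R) (h0 : ∀ z, R' < ‖z‖ → π 0 (p z) = 0) :
    ∫ z in ball 0 R, jacOn univ p π z = 0 := by
  obtain ⟨Lp, hp⟩ := h.lip_p
  choose K hK using hπ
  have hL : ∀ a, LipschitzWith ((∑ b, K b) * Lp) fun w => π a (p w) := fun a =>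
    ((hK a).weaken (Finset.single_le_sum (f := K) (fun _ _ => zero_le) (Finset.mem_univ a))).comp hp
  have hc : HasCompactSupport fun w => π 0 (p w) :=
    HasCompactSupport.intro (isCompact_closedBall (0 : Euc (n + 1)) R') fun z hz =>
      h0 z (by simpa using hz)
  have h1 := integral_det_eq_zero (fun a w => π a (p w)) hL 0 hc
  rw [R241.jacOn_eq univ p π, setIntegral_eq_integral_of_forall_compl_eq_zero, h1]
  intro z hz
  have hz' : R' < ‖z‖ := hR.trans_le (by simpa using hz)
  have hev : (fun w => π 0 (p w)) =ᶠ[𝓝 z] fun _ => 0 := by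
    filter_upwards [(isOpen_lt continuous_const continuous_norm).mem_nhds hz'] with w hw
    exact h0 w hw
  refine Matrix.det_eq_zero_of_row_eq_zero 0 fun b => ?_
  simp [hev.fderiv_eq]

theorem mch_pieces {A : Euc d → Euc d →L[ℝ] Euc N} {p : Euc d → Y} {q : Y → Euc d}
    (h : BC A R p q) (hR : 0 < R) {ε : ℝ} (hε : 0 < ε) :
    ∃ (P : ℕ → Set (Euc d)) (B : ℕ → Euc d ≃L[ℝ] Euc d), (∀ i, MeasurableSet (P i)) ∧
      Pairwise (Function.onFun Disjoint P) ∧ ⋃ i, P i = ball 0 R ∧
      (∀ i, ∀ z ∈ P i, ∀ z' ∈ P i, dist (p z) (p z') ≤ ‖B i (z - z')‖) ∧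
      (∀ i, ∀ z ∈ P i, ∀ w, ‖A z w‖ ≤ ‖B i w‖) ∧
      ∀ i, ∀ z ∈ P i, |(B i : Euc d →L[ℝ] Euc d).det| ≤ (1 + ε) * Jm (A z) := by
  obtain ⟨e, he, hpow⟩ := exists_pow_le (d + 1) hε
  obtain ⟨δ₀, hδ₀, hu⟩ := h.expF.unif R he
  have hloc : ∀ v : Euc d, ∃ δ > 0, δ ≤ δ₀ ∧ (v ∈ ball (0 : Euc d) R →
      ∀ z ∈ closedBall (0 : Euc d) R ∩ ball v δ, ∀ z' ∈ closedBall (0 : Euc d) R ∩ ball v δ,
        |dist (p z) (p z') - ‖A v (z - z')‖| ≤ e * ‖z - z'‖) := by
    intro v
    by_cases hv : v ∈ ball (0 : Euc d) R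
    · obtain ⟨δ, hδ, H⟩ := h.loc v (ball_subset_closedBall hv) e he
      exact ⟨min δ δ₀, lt_min hδ hδ₀, min_le_right _ _, fun _ z hz z' hz' =>
        H z ⟨hz.1, ball_subset_ball (min_le_left _ _) hz.2⟩ z'
          ⟨hz'.1, ball_subset_ball (min_le_left _ _) hz'.2⟩⟩
    · exact ⟨δ₀, hδ₀, le_rfl, fun h => absurd h hv⟩
  choose δ hδ hδle hloc using hloc
  obtain ⟨t, hts, htc, hcov⟩ := TopologicalSpace.countable_cover_nhdsWithin
    (f := fun v => ball v (δ v)) (s := ball (0 : Euc d) R)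
    fun v _ => mem_nhdsWithin_of_mem_nhds (ball_mem_nhds v (hδ v))
  have hne : t.Nonempty := by
    obtain ⟨v, hv, -⟩ := mem_iUnion₂.1 (hcov (mem_ball_self hR))
    exact ⟨v, hv⟩
  obtain ⟨v, rfl⟩ := htc.exists_eq_range hne
  have hv : ∀ i, v i ∈ ball (0 : Euc d) R := fun i => hts (mem_range_self i)
  have hn : ∀ i w, ‖((1 + e) • A (v i)) w‖ = (1 + e) * ‖A (v i) w‖ := fun i w => by
    rw [smul_apply, norm_smul, Real.norm_of_nonneg (by positivity)]
  have hB := fun i => exists_B (A := (1 + e) • A (v i)) fun w => by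
    rw [hn]
    nlinarith [h.expF.expand (v i) w, norm_nonneg (A (v i) w)]
  choose B hB hBd using hB
  have hsub : ∀ i, ball (0 : Euc d) R ∩ disjointed (fun i => ball (v i) (δ (v i))) i
      ⊆ closedBall 0 R ∩ ball (v i) (δ (v i)) := fun i z hz =>
    ⟨ball_subset_closedBall hz.1, disjointed_subset (fun i => ball (v i) (δ (v i))) i hz.2⟩
  have hcl : ∀ i, ∀ z ∈ ball (0 : Euc d) R ∩ disjointed (fun i => ball (v i) (δ (v i))) i,
      z ∈ closedBall (v i) δ₀ := fun i z hz =>
    closedBall_subset_closedBall (hδle _) (ball_subset_closedBall (hsub i hz).2)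
  refine ⟨fun i => ball 0 R ∩ disjointed (fun i => ball (v i) (δ (v i))) i, B,
    fun i => measurableSet_ball.inter (MeasurableSet.disjointed (fun _ => measurableSet_ball) i),
    fun i j hij => (disjoint_disjointed _ hij).mono inter_subset_right inter_subset_right,
    ?_, fun i z hz z' hz' => ?_, fun i z hz w => ?_, fun i z hz => ?_⟩
  · rw [← inter_iUnion, iUnion_disjointed, inter_eq_left]
    rwa [biUnion_range] at hcov
  · have h1 := (abs_le.1 (hloc (v i) (hv i) z (hsub i hz) z' (hsub i hz'))).2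
    rw [hB, hn]
    nlinarith [h.expF.expand (v i) (z - z')]
  · rw [hB, hn]
    exact (hu (v i) (ball_subset_closedBall (hv i)) z (hcl i z hz)).2.1 w
  · have h1 := (hu (v i) (ball_subset_closedBall (hv i)) z (hcl i z hz)).2.2.2
    have h2 : Jm ((1 + e) • A (v i)) = (1 + e) ^ d * Jm (A (v i)) := by
      rw [Jm_eq_normDet, Jm_eq_normDet, ContinuousLinearMap.toLinearMap_smul,
        LinearMap.normDet_smul, Real.norm_of_nonneg (by positivity), finrank_euclideanSpace_fin]
    rw [hBd, h2]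
    calc (1 + e) ^ d * Jm (A (v i)) ≤ (1 + e) ^ d * ((1 + e) * Jm (A z)) := by gcongr
      _ = (1 + e) ^ (d + 1) * Jm (A z) := by ring
      _ ≤ _ := mul_le_mul_of_nonneg_right hpow (Jm_nonneg _)

theorem mch_integrableOn {p : Euc d → Y} {L : ℝ≥0} (hp : LipschitzWith L p) {f : Y → ℝ}
    {π : Fin d → Y → ℝ} (hf : IsTestPair f π) (R : ℝ) :
    IntegrableOn (fun z => f (p z) * jacOn univ p π z) (ball 0 R) := by
  obtain ⟨⟨Kf, hKf⟩, ⟨C, hC⟩, hπ⟩ := hf
  choose K hK using hπ
  have hL : ∀ a, LipschitzOnWith (K a * L) (fun w => π a (p w)) univ := fun a =>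
    ((hK a).comp hp).lipschitzOnWith
  have h1 := aemeasurable_jacE MeasurableSet.univ hL
  have h2 := ae_abs_jacE_le MeasurableSet.univ hL
  rw [Measure.restrict_univ] at h1 h2
  refine IntegrableOn.of_bound measure_ball_lt_top
    ((hKf.continuous.comp hp.continuous).aestronglyMeasurable.mul
      h1.aestronglyMeasurable).restrict (C * ∏ a, ((K a * L : ℝ≥0) : ℝ)) (ae_restrict_of_ae ?_)
  filter_upwards [h2] with z hz
  rw [norm_mul]
  exact mul_le_mul (hC _) hz (norm_nonneg _) ((abs_nonneg _).trans (hC (p z)))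

theorem mch_piece {p : Euc d → Y} {L : ℝ≥0} (hp : LipschitzWith L p) (B : Euc d ≃L[ℝ] Euc d)
    {Q : Set (Euc d)} (hQ : MeasurableSet Q) {f : Y → ℝ} {π : Fin d → Y → ℝ}
    (hf : IsTestPair f π) :
    (if 0 < (B : Euc d →L[ℝ] Euc d).det then (1 : ℝ) else -1) *
      ∫ z in B '' Q, f (p (B.symm z)) * jacOn (B '' Q) (fun z => p (B.symm z)) π z
        = ∫ z in Q, f (p z) * jacOn univ p π z := by
  choose K hK using hf.2.2
  have h1 := integral_jacE_image hQ B.lipschitz.lipschitzOnWith B.injective.injOn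
    (g := fun a w => π a (p (B.symm w)))
    (fun a => (((hK a).comp hp).comp B.symm.lipschitz).lipschitzOnWith) fun z => f (p (B.symm z))
  rw [jacOn_eq, h1, ← integral_const_mul]
  refine integral_congr_ae ?_
  have h2 : ∀ᵐ z ∂volume.restrict Q, ∀ a, fderivWithin ℝ (fun w => π a (p w)) Q z
      = fderiv ℝ (fun w => π a (p w)) z := ae_all_iff.2 fun a =>
    (ae_fderivWithin_eq_fderiv hQ ((hK a).comp hp) (eqOn_refl _ _)).mono fun z hz => hz.2.2
  filter_upwards [h2, ae_fderivWithin_eq_fderiv hQ B.lipschitz (eqOn_refl _ _)] with z hz hz'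
  have hd : (B : Euc d →L[ℝ] Euc d).det ≠ 0 := B.toLinearEquiv.isUnit_det'.ne_zero
  simp only [hz'.2.2, B.fderiv, ContinuousLinearEquiv.symm_apply_apply, jacE, jacOn, hz,
    fderivWithin_univ]
  split_ifs with hpos
  · rw [sign_pos hpos]
    simp
  · rw [sign_neg (lt_of_le_of_ne (not_lt.1 hpos) hd)]
    simp

/-- Cover `ball 0 R` by countably many balls `ball (v i) (δ i)` (`v i ∈ closedBall 0 R`; `δ i` from
`BC.loc` and `ExpF.unif`), `P i = ball 0 R ∩ disjointed …`, `B i = (1+ε') • B_{v i}` (`exists_B`);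
build `M` by hand: `E i = B i '' P i`, `φ i = p ∘ (B i).symm`, `sg i = sign det (B i)`.
Action: `hasSum_act`, `integral_jacE_image`, `ae_fderivWithin_eq_fderiv`, `hasSum_integral_iUnion`.
Gradient: `lintegral_par`, `norm_grad`, `lintegral_image_lip`. -/
theorem BC.exists_chain [MeasurableSpace Y] [BorelSpace Y] {A : Euc d → Euc d →L[ℝ] Euc N}
    {p : Euc d → Y} {q : Y → Euc d} (h : BC A R p q) (hR : 0 < R) {ε : ℝ} (hε : 0 < ε) :
    ∃ M : Ch Y d,
      (∀ f π, IsTestPair f π → M.act f π = ∫ z in ball 0 R, f (p z) * jacOn univ p π z) ∧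
      (∀ (D : Set Y) (hD : MeasurableSet D) f π, IsTestPair f π →
        (M.restr D hD).act f π = ∫ z in ball 0 R ∩ p ⁻¹' D, f (p z) * jacOn univ p π z) ∧
      ∀ (u : Y → ℝ) (G : Euc d → ℝ), Lip u → (∀ z, 0 ≤ G z) →
        (∀ z ∈ ball (0 : Euc d) R, ∀ w,
          Jm (A z) * |fderiv ℝ (fun z => u (p z)) z w| ≤ G z * ‖A z w‖) →
        ∫⁻ w, ‖M.grad u w‖ₑ ∂M.par
          ≤ ENNReal.ofReal (1 + ε) * ∫⁻ z in ball 0 R, ENNReal.ofReal (G z) := by
  obtain ⟨P, B, hPm, hPd, hPU, hdist, hAB, hdet⟩ := mch_pieces h hR hε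
  obtain ⟨Lp, hp⟩ := h.lip_p
  have hPb : ∀ i, P i ⊆ ball 0 R := fun i => hPU ▸ subset_iUnion P i
  have hEm : ∀ (i) {Q : Set (Euc d)}, MeasurableSet Q → MeasurableSet (B i '' Q) := fun i Q hQ =>
    (B i).toHomeomorph.measurableEmbedding.measurableSet_image.2 hQ
  obtain ⟨C, hC⟩ := (isCompact_closedBall (0 : Euc d) R).exists_bound_of_continuousOn
    h.expF.continuous_Jm.continuousOn
  let M : Ch Y d :=
    { E := fun i => B i '' P i
      φ := fun i z => p ((B i).symm z)
      sg := fun i => if 0 < (B i : Euc d →L[ℝ] Euc d).det then 1 else -1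
      meas := fun i => hEm i (hPm i)
      lip := fun i => by
        refine LipschitzOnWith.of_dist_le_mul ?_
        rintro _ ⟨z, hz, rfl⟩ _ ⟨z', hz', rfl⟩
        simpa [dist_eq_norm] using hdist i z hz z' hz'
      hsg := fun i => by split_ifs <;> simp
      fin := by
        have h1 : ∀ i, volume (B i '' P i) ≤ ENNReal.ofReal ((1 + ε) * C) * volume (P i) := by
          intro i
          rcases (P i).eq_empty_or_nonempty with he | ⟨z, hz⟩
          · simp [he]
          · rw [Measure.addHaar_image_continuousLinearEquiv]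
            gcongr
            refine (hdet i z hz).trans ?_
            gcongr
            exact (le_abs_self _).trans (hC z (ball_subset_closedBall (hPb i hz)))
        refine ne_top_of_le_ne_top ?_ (ENNReal.tsum_le_tsum h1)
        rw [ENNReal.tsum_mul_left, ← measure_iUnion hPd hPm, hPU]
        exact ENNReal.mul_ne_top ENNReal.ofReal_ne_top measure_ball_lt_top.ne }
  have hsum : ∀ (Q : Set (Euc d)), MeasurableSet Q → ∀ f π, IsTestPair f π →
      HasSum (fun i => M.sg i * ∫ z in B i '' (P i ∩ Q), f (M.φ i z) *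
        jacOn (B i '' (P i ∩ Q)) (M.φ i) π z)
        (∫ z in ball 0 R ∩ Q, f (p z) * jacOn univ p π z) := by
    intro Q hQ f π hf
    have h1 := hasSum_integral_iUnion (μ := volume) (s := fun i => P i ∩ Q)
      (f := fun z => f (p z) * jacOn univ p π z) (fun i => (hPm i).inter hQ)
      (fun i j hij => (hPd hij).mono inter_subset_left inter_subset_left)
      ((mch_integrableOn hp hf R).mono_set (iUnion_subset fun i => inter_subset_left.trans (hPb i)))
    rw [← iUnion_inter, hPU] at h1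
    have h2 : (fun i => M.sg i * ∫ z in B i '' (P i ∩ Q), f (M.φ i z) *
        jacOn (B i '' (P i ∩ Q)) (M.φ i) π z)
        = fun i => ∫ z in P i ∩ Q, f (p z) * jacOn univ p π z :=
      funext fun i => mch_piece hp (B i) ((hPm i).inter hQ) hf
    rw [h2]
    exact h1
  refine ⟨M, fun f π hf => ?_, fun D hD f π hf => ?_, fun u G hu hG0 hG => ?_⟩
  · have h1 := hsum univ MeasurableSet.univ f π hf
    simp only [inter_univ] at h1
    exact (M.hasSum_act hf).unique h1
  · have h1 := hsum (p ⁻¹' D) (hp.continuous.measurable hD) f π hf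
    refine ((M.restr D hD).hasSum_act hf).unique ?_
    have hE : ∀ i, (M.restr D hD).E i = B i '' (P i ∩ p ⁻¹' D) := by
      intro i
      ext z
      constructor
      · rintro ⟨⟨y, hy, rfl⟩, h2⟩
        exact ⟨y, ⟨hy, by simpa [M] using h2⟩, rfl⟩
      · rintro ⟨y, hy, rfl⟩
        exact ⟨⟨y, hy.1, rfl⟩, by simpa [M] using hy.2⟩
    simp only [hE]
    exact h1
  · obtain ⟨Lu, hu⟩ := hu
    rw [M.lintegral_par, ← hPU, lintegral_iUnion hPm hPd, ← ENNReal.tsum_mul_left]
    refine ENNReal.tsum_le_tsum fun i => ?_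
    have hL : LipschitzWith _ fun z => u (p ((B i).symm z)) :=
      (hu.comp hp).comp (B i).symm.lipschitz
    calc ∫⁻ z in B i '' P i, ‖M.grad u (i, z)‖ₑ
        = ∫⁻ z in B i '' P i, ENNReal.ofReal ‖fderiv ℝ (fun z => u (p ((B i).symm z))) z‖ := by
          refine lintegral_congr_ae ?_
          filter_upwards [ae_fderivWithin_eq_fderiv (hEm i (hPm i)) hL (eqOn_refl _ _)] with z hz
          rw [← ofReal_norm, M.norm_grad, ← hz.2.2]
      _ = ∫⁻ z in P i, ENNReal.ofReal |(B i : Euc d →L[ℝ] Euc d).det| *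
            ENNReal.ofReal ‖fderiv ℝ (fun z => u (p ((B i).symm z))) (B i z)‖ :=
          lintegral_image_eq_lintegral_abs_det_fderiv_mul volume (hPm i)
            (fun x _ => (B i).hasFDerivWithinAt) (B i).injective.injOn _
      _ ≤ ∫⁻ z in P i, ENNReal.ofReal (1 + ε) * ENNReal.ofReal (G z) := by
          refine setLIntegral_mono' (hPm i) fun z hz => ?_
          rw [← ENNReal.ofReal_mul (abs_nonneg _), ← ENNReal.ofReal_mul (by positivity)]
          refine ENNReal.ofReal_le_ofReal ?_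
          have hJ : 0 < Jm (A z) := one_pos.trans_le (h.expF.one_le z)
          have h2 : fderiv ℝ (fun z => u (p ((B i).symm z))) (B i z)
              = (fderiv ℝ (fun z => u (p z)) z).comp ((B i).symm : Euc d →L[ℝ] Euc d) := by
            have := (B i).symm.comp_right_fderiv (f := fun z => u (p z)) (x := B i z)
            rw [ContinuousLinearEquiv.symm_apply_apply] at this
            exact this
          have h3 : ‖fderiv ℝ (fun z => u (p ((B i).symm z))) (B i z)‖ ≤ G z / Jm (A z) := by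
            rw [h2]
            refine ContinuousLinearMap.opNorm_le_bound _ (div_nonneg (hG0 z) hJ.le) fun w => ?_
            have h4 := hG z (hPb i hz) ((B i).symm w)
            have h5 := hAB i z hz ((B i).symm w)
            rw [ContinuousLinearEquiv.apply_symm_apply] at h5
            rw [div_mul_eq_mul_div, le_div_iff₀' hJ]
            exact h4.trans (mul_le_mul_of_nonneg_left h5 (hG0 z))
          calc _ ≤ ((1 + ε) * Jm (A z)) * (G z / Jm (A z)) :=
                mul_le_mul (hdet i z hz) h3 (norm_nonneg _) (by positivity)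
            _ = (1 + ε) * G z := by field_simp
      _ = _ := lintegral_const_mul' _ _ ENNReal.ofReal_ne_top

end Crest.Agent.R241
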