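import Crest.Agent.R241.Meas.BC
import Crest.Agent.R241.Meas.Chain

/-!
# Block J: the calibration and the weak derivative of the limit set.  Helper prefix `mcal_`.
-/

open MeasureTheory Set Filter Topology Metric
open Crest.GeometryTopology.MetricCurrent
open Crest.GeometryTopology.Submanifold (Euc metricMat relBoundary)
open scoped ENNReal NNReal InnerProductSpace

noncomputable section

namespace Crest.Agent.R241

variable {d n N : ℕ} {Y : Type} [MetricSpace Y] {R : ℝ}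

/-- pointwise form of `ae_norm_fderivWithin_le` at a point where all directions are attained -/
theorem norm_le_of_dense_dir {F : Type*} [NormedAddCommGroup F] [NormedSpace ℝ F]
    {E : Set (Euc d)} {g : Euc d → F} {D : Euc d →L[ℝ] F} {z : Euc d}
    (hd : ∀ v : Euc d, ∀ ε > 0, ∀ᶠ t in 𝓝[>] (0 : ℝ), ∃ z' ∈ E, ‖z' - (z + t • v)‖ ≤ ε * t)
    (hg : HasFDerivWithinAt g D E z)
    (h : ∀ ε > 0, ∀ᶠ z' in 𝓝[E] z, ‖g z' - g z‖ ≤ (1 + ε) * ‖z' - z‖) (w : Euc d) :
    ‖D w‖ ≤ ‖w‖ := by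
  have key : ∀ ε > 0, ‖D w‖ ≤ (1 + 2 * ε) * (‖w‖ + ε) + ‖D‖ * ε := by
    intro ε hε
    have h1 := (h ε hε).and (hg.isLittleO.def hε)
    obtain ⟨δ, hδ, H⟩ := Metric.mem_nhdsWithin_iff.1 h1
    have h2 : ∀ᶠ t in 𝓝[>] (0 : ℝ), t * (‖w‖ + ε) < δ := by
      have : Tendsto (fun t : ℝ => t * (‖w‖ + ε)) (𝓝 0) (𝓝 (0 * (‖w‖ + ε))) :=
        tendsto_id.mul_const _
      rw [zero_mul] at this
      exact (this.eventually (gt_mem_nhds hδ)).filter_mono nhdsWithin_le_nhds
    obtain ⟨t, ⟨⟨z', hz', hzt⟩, ht⟩, ht0⟩ :=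
      (((hd w ε hε).and h2).and self_mem_nhdsWithin).exists
    have ht0 : 0 < t := ht0
    have h3 : ‖z' - z‖ ≤ t * (‖w‖ + ε) := by
      have : z' - z = (z' - (z + t • w)) + t • w := by abel
      rw [this]
      refine (norm_add_le _ _).trans ?_
      rw [norm_smul, Real.norm_of_nonneg ht0.le]
      linarith
    obtain ⟨h4, h5⟩ := H ⟨mem_ball_iff_norm.2 (h3.trans_lt ht), hz'⟩
    have h6 : ‖D (z' - z)‖ ≤ (1 + 2 * ε) * ‖z' - z‖ := by
      have : D (z' - z) = (g z' - g z) - (g z' - g z - D (z' - z)) := by abel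
      rw [this]
      refine (norm_sub_le _ _).trans ?_
      linarith
    have h7 : t * ‖D w‖ ≤ ‖D (z' - z)‖ + ‖D‖ * (ε * t) := by
      have : t • D w = D (z' - z) - D (z' - (z + t • w)) := by
        rw [← map_sub, ← map_smul]
        congr 1
        abel
      rw [← Real.norm_of_nonneg ht0.le, ← norm_smul, this, Real.norm_of_nonneg ht0.le]
      refine (norm_sub_le _ _).trans (add_le_add le_rfl ((D.le_opNorm _).trans ?_))
      gcongr
    have h8 : (1 + 2 * ε) * ‖z' - z‖ ≤ (1 + 2 * ε) * (t * (‖w‖ + ε)) := by gcongr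
    refine le_of_mul_le_mul_left ?_ ht0
    nlinarith
  have hc : Tendsto (fun ε : ℝ => (1 + 2 * ε) * (‖w‖ + ε) + ‖D‖ * ε) (𝓝[>] 0)
      (𝓝 ((1 + 2 * 0) * (‖w‖ + 0) + ‖D‖ * 0)) :=
    (Continuous.tendsto (by fun_prop) 0).mono_left nhdsWithin_le_nhds
  simpa using ge_of_tendsto hc (eventually_mem_nhdsWithin.mono key)

theorem mcal_det (L : Euc d →L[ℝ] Euc d) :
    (Matrix.of fun a b => L (EuclideanSpace.single b 1) a).det = L.det := by
  rw [ContinuousLinearMap.det, ← LinearMap.det_toMatrix (EuclideanSpace.basisFun (Fin d) ℝ).toBasis]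
  congr 1

/-- For a chart `φ` of `T`, `y = q ∘ φ` is Lipschitz on `E`, differentiable within `E` a.e.; chain
rule: the Jacobian is `det DΦ (y z) * det Dy (z)`; `‖A (y z) (Dy w)‖ ≤ ‖w‖` by `BC.loc`,
`ae_dense_dir`, `norm_le_of_dense_dir`; `Jm_mul_abs_det_le`. -/
theorem BC.ae_jac_le {A : Euc d → Euc d →L[ℝ] Euc N} {p : Euc d → Y} {q : Y → Euc d}
    (h : BC A R p q) {Φ : Euc d → Euc d} (hΦ : ContDiff ℝ 1 Φ)
    (hdet : ∀ z, (fderiv ℝ Φ z).det = Jm (A z)) (T : Ch Y d) :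
    ∀ᵐ w ∂T.par, |T.jac (fun a y => Φ (q y) a) w| ≤ 1 := by
  obtain ⟨Lq, hq⟩ := h.lip_q
  refine T.ae_par_iff.2 fun i => ?_
  have hy : LipschitzOnWith (Lq * 1) (fun z => q (T.φ i z)) (T.E i) :=
    hq.comp_lipschitzOnWith (T.lip i)
  filter_upwards [hy.ae_differentiableWithinAt (T.meas i), ae_uniqueDiffWithinAt (T.meas i),
    ae_dense_dir (T.meas i), ae_restrict_mem (T.meas i)] with z hz hu hd hzE
  set D := fderivWithin ℝ (fun z => q (T.φ i z)) (T.E i) z
  set v := q (T.φ i z) with hv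
  have h1 : T.jac (fun a y => Φ (q y) a) (i, z) = ((fderiv ℝ Φ v).comp D).det := by
    rw [← mcal_det]
    simp only [Ch.jac, jacOn]
    congr 1
    ext a b
    have h2 := ((EuclideanSpace.proj a : Euc d →L[ℝ] ℝ).hasFDerivAt.comp v
      (hΦ.differentiable one_ne_zero v).hasFDerivAt).comp_hasFDerivWithinAt z hz.hasFDerivWithinAt
    have h3 := h2.fderivWithin hu
    simp only [Matrix.of_apply]
    exact congrArg (fun L : Euc d →L[ℝ] ℝ => L (EuclideanSpace.single b 1)) h3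
  have h4 : ∀ w, ‖A v (D w)‖ ≤ ‖w‖ := by
    refine norm_le_of_dense_dir (D := (A v).comp D) hd
      ((A v).hasFDerivAt.comp_hasFDerivWithinAt z hz.hasFDerivWithinAt) fun ε hε => ?_
    obtain ⟨δ, hδ, H⟩ := h.loc v (h.q_mem _) (ε / (Lq + 1)) (by positivity)
    filter_upwards [hz.continuousWithinAt (ball_mem_nhds _ hδ), self_mem_nhdsWithin]
      with z' hz' hzE'
    have h5 := (abs_le.1 (H _ ⟨h.q_mem (T.φ i z'), hz'⟩ v ⟨h.q_mem _, mem_ball_self hδ⟩)).1
    rw [hv, h.pq, h.pq] at h5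
    have h6 : dist (T.φ i z') (T.φ i z) ≤ ‖z' - z‖ := by
      simpa [dist_eq_norm] using (T.lip i).dist_le_mul z' hzE' z hzE
    have h7 : ‖q (T.φ i z') - q (T.φ i z)‖ ≤ (Lq + 1) * ‖z' - z‖ := by
      rw [← dist_eq_norm]
      refine (hq.dist_le_mul _ _).trans ?_
      gcongr
      linarith
    have h8 : ε / (Lq + 1) * ‖q (T.φ i z') - q (T.φ i z)‖ ≤ ε * ‖z' - z‖ := by
      calc _ ≤ ε / (Lq + 1) * ((Lq + 1) * ‖z' - z‖) := by gcongr
        _ = _ := by field_simp
    simp only [Function.comp_apply]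
    rw [← map_sub]
    linarith
  rw [h1, ContinuousLinearMap.det, ContinuousLinearMap.toLinearMap_comp, LinearMap.det_comp, abs_mul]
  have h9 := Jm_mul_abs_det_le (h.expF.expand v) h4
  rw [← hdet v] at h9
  have h10 : 0 ≤ (fderiv ℝ Φ v).det := hdet v ▸ Jm_nonneg _
  rw [← abs_of_nonneg h10] at h9
  exact h9

/-- `exists_prim`, `BC.jacOn_eq`, `BC.ae_jac_le` -/
theorem BC.exists_cal {A : Euc (n + 1) → Euc (n + 1) →L[ℝ] Euc N} {p : Euc (n + 1) → Y}
    {q : Y → Euc (n + 1)} (h : BC A R p q) :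
    ∃ P : Fin (n + 1) → Y → ℝ, (∀ a, Lip (P a)) ∧
      (∀ z ∈ ball (0 : Euc (n + 1)) R, jacOn univ p P z = Jm (A z)) ∧
      ∀ T : Ch Y (n + 1), |T.act (fun _ => 1) P| ≤ T.area := by
  obtain ⟨Φ, hΦ, hdet⟩ := exists_prim h.expF.contDiff_Jm
  obtain ⟨Lq, hq⟩ := h.lip_q
  obtain ⟨K, hK⟩ := hΦ.contDiffOn.exists_lipschitzOnWith one_ne_zero
    (convex_closedBall (0 : Euc (n + 1)) R) (isCompact_closedBall _ _)
  refine ⟨fun a y => Φ (q y) a, fun a => ?_, fun z hz => ?_, fun T => ?_⟩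
  · exact ⟨_, (EuclideanSpace.proj a : Euc (n + 1) →L[ℝ] ℝ).lipschitz.comp
      (lipschitzOnWith_univ.1 (hK.comp hq.lipschitzOnWith fun y _ => h.q_mem y))⟩
  · rw [h.jacOn_eq (g := fun a z => Φ z a) (fun _ _ => rfl) hz, ← hdet, ← mcal_det, jacE]
    congr 1
    ext a b
    have h2 := ((EuclideanSpace.proj a : Euc (n + 1) →L[ℝ] ℝ).hasFDerivAt.comp z
      (hΦ.differentiable one_ne_zero z).hasFDerivAt).fderiv
    simp only [Matrix.of_apply, fderivWithin_univ]
    exact congrArg (fun L : Euc (n + 1) →L[ℝ] ℝ => L (EuclideanSpace.single b 1)) h2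
  · have h1 := norm_integral_le_of_norm_le_const (μ := T.par) (C := 1)
      (f := fun w => T.sg w.1 * 1 * T.jac (fun a y => Φ (q y) a) w) (by
        filter_upwards [h.ae_jac_le hΦ hdet T] with w hw
        rwa [Real.norm_eq_abs, abs_mul, mul_one, T.abs_sg, one_mul])
    rwa [one_mul] at h1

theorem mcal_jacE (ψ : Euc (n + 1) → ℝ) (a : Fin (n + 1)) (z : Euc (n + 1)) :
    jacE univ (Fin.cons ψ fun (b : Fin n) (z : Euc (n + 1)) => z (a.succAbove b) :
      Fin (n + 1) → Euc (n + 1) → ℝ) z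
      = (-1) ^ (a : ℕ) * fderiv ℝ ψ z (EuclideanSpace.single a 1) := by
  have hk : ∀ k : Fin (n + 1), fderiv ℝ (fun z : Euc (n + 1) => z k) z = EuclideanSpace.proj k :=
    fun k => (EuclideanSpace.proj k : Euc (n + 1) →L[ℝ] ℝ).fderiv
  rw [jacE, Matrix.det_succ_column _ a, Fin.sum_univ_succ, Finset.sum_eq_zero, add_zero]
  · have : (Matrix.of fun a' j => fderivWithin ℝ ((Fin.cons ψ fun (b : Fin n) (z : Euc (n + 1)) =>
        z (a.succAbove b) : Fin (n + 1) → Euc (n + 1) → ℝ) a') univ z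
          (EuclideanSpace.single j 1)).submatrix (Fin.succAbove 0) a.succAbove = 1 := by
      ext b c
      simp [hk, Matrix.one_apply]
    rw [this]
    simp
  · intro b _
    simp [hk]

/-- By linearity take `w = single a 1`.  With `f = ψ ∘ q`, `π b y = q y (a.succAbove b)` the Jacobian
is `(-1)^a ∂_a ψ` (`BC.jacOn_eq`, `Matrix.det_succ_row_zero`); dominated convergence; `abs_act_le`
and `Conc` with `g = |f|`. -/
theorem BC.weak_zero [CompactSpace Y] {A : Euc (n + 1) → Euc (n + 1) →L[ℝ] Euc N}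
    {p : Euc (n + 1) → Y} {q : Y → Euc (n + 1)} (h : BC A R p q) {U : Set (Euc (n + 1))}
    (hU : MeasurableSet U) {W : ℕ → Set (Euc (n + 1))} (hW : ∀ i, MeasurableSet (W i))
    (hWb : ∀ i, W i ⊆ ball 0 R) {c : ℕ → Ch Y n}
    (hact : ∀ i f π, IsTestPair f π →
      (c i).act f π = ∫ z in W i, jacOn univ p (Fin.cons f π : Fin (n + 1) → Y → ℝ) z)
    (hlim : ∀ᵐ z, ∀ᶠ i in atTop, z ∈ W i ↔ z ∈ U) {y₁ : Y} {ρ : ℝ} (hc : Conc c y₁ ρ)
    {ψ : Euc (n + 1) → ℝ} (hψ : ContDiff ℝ 1 ψ) (hs : HasCompactSupport ψ)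
    (h0 : ∀ y, dist y y₁ = ρ → ψ (q y) = 0) (w : Euc (n + 1)) :
    ∫ z in U, fderiv ℝ ψ z w = 0 := by
  obtain ⟨Lq, hq⟩ := h.lip_q
  have hcont : ∀ v, Continuous fun z => fderiv ℝ ψ z v := fun v =>
    (hψ.continuous_fderiv one_ne_zero).clm_apply continuous_const
  have hint : ∀ v, Integrable fun z => fderiv ℝ ψ z v := fun v =>
    (hcont v).integrable_of_hasCompactSupport (hs.fderiv_apply (𝕜 := ℝ) v)
  have key : ∀ a : Fin (n + 1), ∫ z in U, fderiv ℝ ψ z (EuclideanSpace.single a 1) = 0 := by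
    intro a
    obtain ⟨Kψ, hKψ⟩ := hψ.lipschitzWith_of_hasCompactSupport hs one_ne_zero
    have hπ : ∀ b : Fin n, LipschitzWith (1 * Lq) fun y => q y (a.succAbove b) := fun b =>
      LipschitzWith.comp (f := fun z : Euc (n + 1) => z (a.succAbove b))
        (LipschitzWith.of_dist_le_mul fun z z' => by
          simpa using PiLp.dist_apply_le z z' (a.succAbove b)) hq
    have hf : IsTestPair (fun y => ψ (q y)) fun (b : Fin n) y => q y (a.succAbove b) :=
      isTestPair_iff.2 ⟨⟨_, hKψ.comp hq⟩, fun b => ⟨_, hπ b⟩⟩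
    have h1 : ∀ i, (c i).act (fun y => ψ (q y)) (fun b y => q y (a.succAbove b))
        = (-1) ^ (a : ℕ) * ∫ z, (W i).indicator
          (fun z => fderiv ℝ ψ z (EuclideanSpace.single a 1)) z := by
      intro i
      rw [hact i _ _ hf, integral_indicator (hW i), ← integral_const_mul]
      refine setIntegral_congr_fun (hW i) fun z hz => ?_
      rw [← mcal_jacE ψ a z]
      refine h.jacOn_eq (fun b y => ?_) (hWb i hz)
      refine Fin.cases ?_ (fun b => ?_) b <;> simp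
    have h2 : Tendsto (fun i => ∫ z, (W i).indicator
        (fun z => fderiv ℝ ψ z (EuclideanSpace.single a 1)) z) atTop
        (𝓝 (∫ z, U.indicator (fun z => fderiv ℝ ψ z (EuclideanSpace.single a 1)) z)) := by
      refine tendsto_integral_of_dominated_convergence
        (fun z => ‖fderiv ℝ ψ z (EuclideanSpace.single a 1)‖)
        (fun i => (hcont _).aestronglyMeasurable.indicator (hW i)) (hint _).norm
        (fun i => Eventually.of_forall fun z => norm_indicator_le_norm_self _ _) ?_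
      filter_upwards [hlim] with z hz
      refine tendsto_const_nhds.congr' (hz.mono fun i hi => ?_)
      beta_reduce
      by_cases hzU : z ∈ U
      · rw [indicator_of_mem hzU, indicator_of_mem (hi.2 hzU)]
      · rw [indicator_of_notMem hzU, indicator_of_notMem fun h' => hzU (hi.1 h')]
    have h3 : Tendsto (fun i => (c i).act (fun y => ψ (q y)) fun b y => q y (a.succAbove b))
        atTop (𝓝 0) := by
      have h4 := (hc (fun y => |ψ (q y)|) (hψ.continuous.comp hq.continuous).abs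
        fun y hy => by rw [h0 y hy, abs_zero]).const_mul (∏ _b : Fin n, ((1 * Lq : ℝ≥0) : ℝ))
      rw [mul_zero] at h4
      exact squeeze_zero_norm (fun i => (c i).abs_act_le hf hπ) h4
    simp only [h1] at h3
    have h5 := tendsto_nhds_unique (h2.const_mul _) h3
    rw [integral_indicator hU] at h5
    exact (mul_eq_zero.1 h5).resolve_left (pow_ne_zero _ (by norm_num))
  have hw : ∀ z, fderiv ℝ ψ z w = ∑ a, w a * fderiv ℝ ψ z (EuclideanSpace.single a 1) := by
    intro z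
    conv_lhs => rw [← (EuclideanSpace.basisFun (Fin (n + 1)) ℝ).sum_repr w]
    simp
  simp only [hw]
  rw [integral_finsetSum _ fun a _ => ((hint _).const_mul _).integrableOn]
  simp [integral_const_mul, key]

end Crest.Agent.R241
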