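import Crest.Agent.R241.Meas.Fun
import Crest.Agent.R241.Meas.Cal
import Crest.Agent.R241.Slice

/-!
# Block J: slicing the fundamental chain.  Helper prefix `mcut_`.
-/

open MeasureTheory Set Filter Topology Metric
open Crest.GeometryTopology.MetricCurrent
open Crest.GeometryTopology.Submanifold (Euc metricMat relBoundary)
open scoped ENNReal NNReal InnerProductSpace

noncomputable section

namespace Crest.Agent.R241

variable {n N : ℕ} {Y : Type} [MetricSpace Y] [CompactSpace Y] [MeasurableSpace Y] [BorelSpace Y]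
  {R : ℝ} {A : Euc (n + 1) → Euc (n + 1) →L[ℝ] Euc N} {p : Euc (n + 1) → Y} {q : Y → Euc (n + 1)}

/-- `exists_slice` for the chain of `BC.exists_chain`, `u = - g ∘ q`, `t₀ = 0`
(`BC.integral_jacOn_eq_zero`); choose the level in `Ioo (-1) 0` with
`exists_notMem_null_le_lintegral`. -/
theorem BC.exists_cut (h : BC A R p q) (hR : 0 < R) {g G : Euc (n + 1) → ℝ} {L : ℝ≥0}
    (hg : LipschitzOnWith L g (closedBall 0 R)) (hg0 : ∀ z, R - 1 ≤ ‖z‖ → g z = 0)
    (hG0 : ∀ z, 0 ≤ G z)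
    (hG : ∀ z ∈ ball (0 : Euc (n + 1)) R, ∀ w, Jm (A z) * |fderiv ℝ g z w| ≤ G z * ‖A z w‖)
    {ε : ℝ} (hε : 0 < ε) :
    ∃ (t : ℝ) (c : Ch Y n), 0 < t ∧ t < 1 ∧ c.IsCyc ∧
      ENNReal.ofReal c.area ≤ ENNReal.ofReal (1 + ε) * ∫⁻ z in ball 0 R, ENNReal.ofReal (G z) ∧
      ∀ f π, IsTestPair f π → c.act f π = ∫ z in ball 0 R ∩ {z | t ≤ g z},
        jacOn univ p (Fin.cons f π : Fin (n + 1) → Y → ℝ) z := by
  obtain ⟨e, he, hpow⟩ := exists_pow_le 2 hε
  obtain ⟨M, hM, hMr, hMg⟩ := h.exists_chain hR he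
  obtain ⟨Lq, hq⟩ := h.lip_q
  have hu : Lip fun y => -g (q y) := by
    refine Lip.neg ⟨L * Lq, ?_⟩
    exact lipschitzOnWith_univ.1 (hg.comp hq.lipschitzOnWith fun y _ => h.q_mem y)
  obtain ⟨b, hbm, hb, hsl⟩ := exists_slice M hu 0 (fun π hπ h0 => by
    rw [hM _ _ ⟨⟨0, LipschitzWith.const 1⟩, ⟨1, fun _ => by simp⟩, hπ⟩]
    simp only [one_mul]
    refine h.integral_jacOn_eq_zero hπ (R' := R - 1) (by linarith) fun z hz => h0 _ ?_
    rw [hg0, neg_zero]
    rcases le_total ‖z‖ R with h1 | h1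
    · rw [h.qp z (mem_closedBall_zero_iff.2 h1)]
      exact hz.le
    · rw [h.out z h1]
      linarith) he
  have hgrad := hMg (fun y => -g (q y)) G hu hG0 fun z hz w => by
    have hev : (fun z => -g (q (p z))) =ᶠ[𝓝 z] fun z => -g z := by
      filter_upwards [isOpen_ball.mem_nhds hz] with w hw
      rw [h.qp w (ball_subset_closedBall hw)]
    rw [hev.fderiv_eq, fderiv_fun_neg, neg_apply, abs_neg]
    exact hG z hz w
  have : IsProbabilityMeasure (volume.restrict (Ioo (-1 : ℝ) 0)) := ⟨by simp⟩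
  have hae := (ae_restrict_of_ae (s := Ioo (-1 : ℝ) 0) hsl).and (ae_restrict_mem measurableSet_Ioo)
  obtain ⟨s, hs, hsb⟩ := exists_notMem_null_le_lintegral hbm.aemeasurable (ae_iff.1 hae)
  simp only [mem_ofPred_eq, not_not] at hs
  obtain ⟨c, hbd, hc, -⟩ := hs.1 hs.2.2
  refine ⟨-s, c, by linarith [hs.2.2], by linarith [hs.2.1], hbd.isCyc, ?_, fun f π hf => ?_⟩
  · calc ENNReal.ofReal c.area ≤ _ := hc.trans (hsb.trans (hb _ measurableSet_Ioo))
      _ ≤ ENNReal.ofReal (1 + e) * (ENNReal.ofReal (1 + e) *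
            ∫⁻ z in ball 0 R, ENNReal.ofReal (G z)) := by
          gcongr
          exact (setLIntegral_le_lintegral _ _).trans hgrad
      _ ≤ _ := by
          rw [← mul_assoc, ← ENNReal.ofReal_mul (by positivity), ← sq]
          gcongr
  · rw [← hbd f π hf, hMr _ _ _ _ (isTestPair_cons hf)]
    simp only [one_mul]
    congr 2
    ext z
    refine and_congr_right fun hz => ?_
    simp only [mem_preimage, mem_ofPred_eq, h.qp z (ball_subset_closedBall hz)]
    exact neg_le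

/-- `Bounds.exists_fun`, `BC.exists_cut`, `BC.exists_cal` -/
theorem BC.exists_W (h : BC A R p q) (hR : 0 < R) {U : Set (Euc (n + 1))} (hU : IsOpen U)
    {lam : Measure (Euc (n + 1))} [IsFiniteMeasure lam] (hlam : Bounds A R U lam) {ε r₀ : ℝ}
    (hε : 0 < ε) (hr₀ : 0 < r₀) :
    ∃ (W : Set (Euc (n + 1))) (c : Ch Y n), MeasurableSet W ∧ W ⊆ ball 0 R ∧ c.IsCyc ∧
      ENNReal.ofReal c.area ≤ ENNReal.ofReal (1 + ε) *
        (lam univ + 2 * ∫⁻ z in U \ ball 0 (R - 3), ENNReal.ofReal (Jm (A z))) ∧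
      (∀ f π, IsTestPair f π →
        c.act f π = ∫ z in W, jacOn univ p (Fin.cons f π : Fin (n + 1) → Y → ℝ) z) ∧
      (∀ z, ‖z‖ ≤ R - 2 → ball z r₀ ⊆ U → z ∈ W) ∧ (∀ z ∈ W, ¬Disjoint (ball z r₀) U) ∧
      ∀ T, IsBd T c → ∫⁻ z in W, ENNReal.ofReal (Jm (A z)) ≤ ENNReal.ofReal T.area := by
  obtain ⟨e, he, hpow⟩ := exists_pow_le 2 hε
  obtain ⟨g, G, L, hg, hg0, hg1, hg2, hG0, hG, hint⟩ := hlam.exists_fun h.expF hU he hr₀
  obtain ⟨t, c, ht0, ht1, hcyc, harea, hact⟩ := h.exists_cut hR hg hg0 hG0 hG he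
  obtain ⟨P, hP, hPJ, hcal⟩ := h.exists_cal
  have hm : MeasurableSet (ball (0 : Euc (n + 1)) R ∩ {z | t ≤ g z}) := by
    have h1 := (hg.continuousOn.preimage_isClosed_of_isClosed isClosed_closedBall
      (isClosed_Ici (a := t))).measurableSet
    convert measurableSet_ball.inter h1 using 1
    ext z
    exact ⟨fun hz => ⟨hz.1, ball_subset_closedBall hz.1, hz.2⟩, fun hz => ⟨hz.1, hz.2.2⟩⟩
  refine ⟨_, c, hm, inter_subset_left, hcyc, ?_, hact, fun z hz hzU => ⟨?_, ?_⟩,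
    fun z hz hd => ?_, fun T hT => ?_⟩
  · refine harea.trans ?_
    have h1 : (1 : ℝ≥0∞) ≤ ENNReal.ofReal (1 + e) := ENNReal.one_le_ofReal.2 (by linarith)
    calc _ ≤ ENNReal.ofReal (1 + e) * (ENNReal.ofReal (1 + e) *
          (lam univ + 2 * ∫⁻ z in U \ ball 0 (R - 3), ENNReal.ofReal (Jm (A z)))) := by
          gcongr
          refine hint.trans ?_
          rw [mul_add]
          exact add_le_add le_rfl (le_mul_of_one_le_left' h1)
      _ ≤ _ := by
          rw [← mul_assoc, ← ENNReal.ofReal_mul (by positivity), ← sq]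
          gcongr
  · exact mem_ball_zero_iff.2 (by linarith)
  · rw [mem_ofPred_eq, hg1 z hz hzU]
    exact ht1.le
  · have h1 : t ≤ g z := hz.2
    rw [hg2 z hd] at h1
    linarith
  · have hf : IsTestPair (P 0) (Fin.tail P) := isTestPair_iff.2 ⟨hP 0, fun a => hP a.succ⟩
    have h1 := hT _ _ hf
    rw [hact _ _ hf, Fin.cons_self_tail,
      setIntegral_congr_fun hm fun z hz => hPJ z hz.1] at h1
    rw [← ofReal_integral_eq_lintegral_ofReal _ (Eventually.of_forall fun z => Jm_nonneg _), ← h1]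
    · exact ENNReal.ofReal_le_ofReal ((le_abs_self _).trans (hcal T))
    · exact (h.expF.continuous_Jm.continuousOn.integrableOn_compact
        (isCompact_closedBall 0 R)).mono_set (inter_subset_left.trans ball_subset_closedBall)

end Crest.Agent.R241
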